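import Vale.Agent.P027.R4.H788.Defs

set_option linter.all false

/-! Denominators of the multiples of `P0`: orders, divisibility in `R`. -/

namespace Vale.Agent.P027.D1

open Vale.Agent.P345 Vale.Agent.P027 Vale.Agent.P027.HT

/-! ### Norms and denominators -/

theorem pow_dvd_den_iff {q : ℕ} [hq : Fact q.Prime] {k : ℕ} (hk : 1 ≤ k) (x : ℚ) :
    q ^ k ∣ x.den ↔ (q : ℚ) ^ k ≤ padicNorm q x := by
  have hx : x = (x.num : ℚ) / ((x.den : ℤ) : ℚ) := by
    rw [Int.cast_natCast]; exact (Rat.num_div_den x).symm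
  have hq1 : (1 : ℚ) < q := by exact_mod_cast hq.out.one_lt
  have hqk : (1 : ℚ) < (q : ℚ) ^ k := one_lt_pow₀ hq1 (by omega)
  have hn : padicNorm q x = padicNorm q (x.num : ℚ) / padicNorm q ((x.den : ℤ) : ℚ) := by
    conv_lhs => rw [hx]
    rw [padicNorm.div]
  by_cases hd : q ∣ x.den
  · have h1 : ¬ (q : ℤ) ∣ x.num := by
      intro h
      have h2 : q ∣ x.num.natAbs := Int.natCast_dvd.1 h
      have h3 := Nat.dvd_gcd h2 hd
      rw [x.reduced.gcd_eq_one] at h3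
      exact hq.out.one_lt.ne' (Nat.dvd_one.1 h3)
    rw [hn, (padicNorm.int_eq_one_iff x.num).2 h1]
    have h4 := padicNorm.dvd_iff_norm_le (p := q) (n := k) (z := (x.den : ℤ))
    have h5 : 0 < padicNorm q ((x.den : ℤ) : ℚ) :=
      lt_of_le_of_ne (padicNorm.nonneg _) (padicNorm.nonzero (by
        exact_mod_cast x.den_ne_zero)).symm
    rw [le_div_iff₀ h5, ← Int.natCast_dvd_natCast, h4, zpow_neg, zpow_natCast,
      ← le_div_iff₀' (by positivity), one_div]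
  · have h1 : ¬ (q : ℤ) ∣ (x.den : ℤ) := fun h => hd (Int.natCast_dvd_natCast.1 h)
    rw [hn, (padicNorm.int_eq_one_iff (x.den : ℤ)).2 h1, div_one]
    constructor
    · intro h
      exact absurd ((dvd_pow_self q (by omega)).trans h) hd
    · intro h
      have := padicNorm.of_int (p := q) x.num
      linarith

theorem dvd_den_iff {q : ℕ} [hq : Fact q.Prime] (x : ℚ) : q ∣ x.den ↔ 1 < padicNorm q x := by
  have h := pow_dvd_den_iff (q := q) (k := 1) le_rfl x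
  rw [pow_one, pow_one] at h
  rw [h]
  have hq1 : (1 : ℚ) < q := by exact_mod_cast hq.out.one_lt
  refine ⟨fun h1 => lt_of_lt_of_le hq1 h1, fun h1 => ?_⟩
  have hx0 : x ≠ 0 := by
    rintro rfl
    rw [padicNorm.zero] at h1
    linarith
  rw [norm_eq_zpow q hx0] at h1 ⊢
  have h2 : (0 : ℤ) < -padicValRat q x := by
    by_contra hcon
    push Not at hcon
    have := zpow_le_zpow_right₀ hq1.le hcon
    rw [zpow_zero] at this
    linarith
  calc (q : ℚ) = (q : ℚ) ^ (1 : ℤ) := (zpow_one _).symm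
    _ ≤ _ := zpow_le_zpow_right₀ hq1.le (by omega)

theorem not_dvd_den_iff {q : ℕ} [hq : Fact q.Prime] (x : ℚ) :
    ¬ q ∣ x.den ↔ padicNorm q x ≤ 1 := by
  rw [dvd_den_iff, not_lt]

/-! ### Subgroups -/

theorem mem_GG_iff {q k : ℕ} [hq : Fact q.Prime] (hk : 1 ≤ k) (h : (1 : ℚ) < (q : ℚ) ^ k)
    {V : EC.Point} (hV : V ≠ 0) : V ∈ GG q ((q : ℚ) ^ k) h ↔ q ^ k ∣ (xc V).den := by
  rw [mem_GG_of_hasX q h (hasX_xc hV), pow_dvd_den_iff hk]

/-- denominators of multiples -/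
theorem den_dvd_smul {V : EC.Point} {m : ℤ} (hV : V ≠ 0) (hm : m • V ≠ 0) :
    (xc V).den ∣ (xc (m • V)).den := by
  rw [Nat.dvd_iff_prime_pow_dvd_dvd]
  intro q k hq hqk
  rcases Nat.eq_zero_or_pos k with rfl | hk
  · simp
  have : Fact q.Prime := ⟨hq⟩
  have hq1 : (1 : ℚ) < (q : ℚ) ^ k :=
    one_lt_pow₀ (by exact_mod_cast hq.one_lt) (by omega)
  rw [← mem_GG_iff hk hq1 hV] at hqk
  rw [← mem_GG_iff hk hq1 hm]
  exact AddSubgroup.zsmul_mem _ hqk m

theorem dv_iff {q : ℕ} [hq : Fact q.Prime] (h : (1 : ℚ) < (q : ℚ) ^ 1) (n : ℤ) :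
    Dv q n ↔ n • P0 ∈ GG q ((q : ℚ) ^ 1) h := by
  unfold Dv
  by_cases hn : n = 0
  · subst hn
    simp only [true_or, zero_zsmul, true_iff]
    exact AddSubgroup.zero_mem _
  · rw [mem_GG_iff le_rfl h (zsmul_P0_ne_zero hn), pow_one]
    simp [hn]

theorem exists_dv (q : ℕ) (hq : q.Prime) : ∃ M : ℕ, ∀ n : ℤ, Dv q n ↔ (M : ℤ) ∣ n := by
  have : Fact q.Prime := ⟨hq⟩
  have hq1 : (1 : ℚ) < (q : ℚ) ^ 1 := by rw [pow_one]; exact_mod_cast hq.one_lt
  obtain ⟨M, hM⟩ := Int.subgroup_cyclic ((GG q ((q : ℚ) ^ 1) hq1).comap (zmultiplesHom _ P0))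
  refine ⟨M.natAbs, fun n => ?_⟩
  have h1 : n • P0 ∈ GG q ((q : ℚ) ^ 1) hq1 ↔
      n ∈ (GG q ((q : ℚ) ^ 1) hq1).comap (zmultiplesHom _ P0) := by
    rw [AddSubgroup.mem_comap, zmultiplesHom_apply]
  rw [dv_iff hq1, h1, hM, ← AddSubgroup.zmultiples_eq_closure, Int.mem_zmultiples_iff,
    Int.natAbs_dvd]

/-- every prime that divides a denominator has an order -/
theorem rowO : RowO := by
  intro q hq n hn hd
  obtain ⟨M, hM⟩ := exists_dv q hq
  have h1 : (M : ℤ) ∣ n := (hM n).1 hd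
  have h2 : M ∣ n := Int.natCast_dvd_natCast.1 h1
  exact ⟨M, ⟨Nat.pos_of_dvd_of_pos h2 hn, hM⟩, h2⟩

/-- the order as the least index -/
theorem ord_iff_least {q : ℕ} (hq : q.Prime) (m : ℕ) : Ord q m ↔
    0 < m ∧ q ∣ (xc ((m : ℤ) • P0)).den ∧
      ∀ j : ℕ, 0 < j → j < m → ¬ q ∣ (xc ((j : ℤ) • P0)).den := by
  have e : ∀ n : ℕ, 0 < n → (Dv q n ↔ q ∣ (xc ((n : ℤ) • P0)).den) := by
    intro n hn
    unfold Dv
    have : (n : ℤ) ≠ 0 := by exact_mod_cast hn.ne'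
    simp only [this, false_or]
  constructor
  · rintro ⟨h0, h1⟩
    refine ⟨h0, (e m h0).1 ((h1 m).2 dvd_rfl), fun j hj hjm hd => ?_⟩
    have h2 := (h1 j).1 ((e j hj).2 hd)
    have h3 := Nat.le_of_dvd hj (Int.natCast_dvd_natCast.1 h2)
    omega
  · rintro ⟨h0, h1, h2⟩
    obtain ⟨M, hM⟩ := exists_dv q hq
    have h3 : M ∣ m := Int.natCast_dvd_natCast.1 ((hM m).1 ((e m h0).2 h1))
    have hM0 : 0 < M := Nat.pos_of_dvd_of_pos h3 h0
    have h4 : M = m := by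
      by_contra hne
      have h5 : M < m := lt_of_le_of_ne (Nat.le_of_dvd h0 h3) hne
      exact h2 M hM0 h5 ((e M hM0).1 ((hM M).2 dvd_rfl))
    rw [← h4]
    exact ⟨hM0, hM⟩

/-! ### Divisibility of denominators in `R` -/

theorem denDvd_sound {R : Set ℚ} {x x' : ℚ} (h : DenDvd R x x') {q : ℕ} (hq : q.Prime)
    (hR : ∀ t ∈ R, ¬ q ∣ t.den) (hx : q ∣ x.den) : q ∣ x'.den := by
  have : Fact q.Prime := ⟨hq⟩
  have hR' : ∀ t ∈ R, padicNorm q t ≤ 1 := fun t ht => (not_dvd_den_iff t).1 (hR t ht)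
  obtain ⟨a, ha, d, hd, u, hu, v, hv, a', ha', d', hd', u', hu', v', hv', w, hw, e1, e2, e3, e4,
    e5⟩ := h
  rw [dvd_den_iff] at hx ⊢
  have n1 : padicNorm q x * padicNorm q d ≤ 1 := by
    rw [← padicNorm.mul, e1]; exact hR' a ha
  have hd1 : padicNorm q d < 1 := by
    by_contra hcon
    push Not at hcon
    have := padicNorm.nonneg (p := q) d
    nlinarith
  have hd'1 : padicNorm q d' < 1 := by
    rw [e5, padicNorm.mul]
    have h1 := hR' w hw
    have h2 := padicNorm.nonneg (p := q) d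
    have h3 := padicNorm.nonneg (p := q) w
    nlinarith
  have h6 : padicNorm q (v' * d') < 1 := by
    rw [padicNorm.mul]
    have h1 := hR' v' hv'
    have h2 := padicNorm.nonneg (p := q) d'
    have h3 := padicNorm.nonneg (p := q) v'
    nlinarith
  have h7 : 1 ≤ padicNorm q (u' * a') := by
    by_contra hcon
    push Not at hcon
    have h8 : padicNorm q (u' * a' + v' * d') < 1 :=
      lt_of_le_of_lt padicNorm.nonarchimedean (max_lt hcon h6)
    rw [e4, padicNorm.one] at h8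
    exact lt_irrefl _ h8
  have h8 : 1 ≤ padicNorm q a' := by
    rw [padicNorm.mul] at h7
    have h1 := hR' u' hu'
    have h2 := padicNorm.nonneg (p := q) a'
    have h3 := padicNorm.nonneg (p := q) u'
    nlinarith
  rw [← e3, padicNorm.mul] at h8
  by_contra hcon
  push Not at hcon
  have h2 := padicNorm.nonneg (p := q) d'
  have h3 := padicNorm.nonneg (p := q) x'
  nlinarith

lemma exists_bezout (x : ℚ) : ∃ u v : ℤ, (u : ℚ) * (x.num : ℤ) + v * ((x.den : ℤ) : ℚ) = 1 := by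
  have h : IsCoprime x.num (x.den : ℤ) := by
    rw [Int.isCoprime_iff_gcd_eq_one]
    exact x.reduced
  obtain ⟨u, v, h⟩ := h
  exact ⟨u, v, by exact_mod_cast h⟩

theorem denDvd_complete {R : Set ℚ} (hZ : ∀ z : ℤ, (z : ℚ) ∈ R) {x x' : ℚ} (h : x.den ∣ x'.den) :
    DenDvd R x x' := by
  obtain ⟨u, v, huv⟩ := exists_bezout x
  obtain ⟨u', v', huv'⟩ := exists_bezout x'
  obtain ⟨w, hw⟩ := h
  refine ⟨_, hZ x.num, _, hZ x.den, _, hZ u, _, hZ v, _, hZ x'.num, _, hZ x'.den, _, hZ u', _,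
    hZ v', _, hZ w, ?_, huv, ?_, huv', ?_⟩
  · rw [Int.cast_natCast]
    nth_rw 1 [← Rat.num_div_den x]
    exact div_mul_cancel₀ _ (by exact_mod_cast x.den_ne_zero)
  · rw [Int.cast_natCast]
    nth_rw 1 [← Rat.num_div_den x']
    exact div_mul_cancel₀ _ (by exact_mod_cast x'.den_ne_zero)
  · rw [hw]
    push_cast
    ring

/-! ### The numbers `L` and `M` -/

theorem LL_pos (B C : ℕ) : 0 < LL B C := by
  unfold LL
  refine Finset.prod_pos (fun p hp => pow_pos ?_ _)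
  exact (Finset.mem_filter.1 hp).2.1.pos

theorem prime_dvd_LL {B C r : ℕ} (hr : r.Prime) (h : r ∣ LL B C) : r ≤ B ∧ ¬ r ∣ 2 * C := by
  unfold LL at h
  obtain ⟨p, hp, h1⟩ := (hr.prime.dvd_finset_prod_iff _).1 h
  rw [Finset.mem_filter, Finset.mem_range] at hp
  have h2 : r = p := (Nat.prime_dvd_prime_iff_eq hr hp.2.1).1 (hr.dvd_of_dvd_pow h1)
  rw [h2]
  exact ⟨by omega, hp.2.2⟩

theorem LL_eq {B C r : ℕ} (hr : r.Prime) (h2 : ¬ r ∣ 2 * C) (hrB : r ≤ B) :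
    ∃ c, LL B C = r ^ B * c ∧ ¬ r ∣ c := by
  have hmem : r ∈ (Finset.range (B + 1)).filter (fun p => p.Prime ∧ ¬ p ∣ 2 * C) := by
    rw [Finset.mem_filter, Finset.mem_range]
    exact ⟨by omega, hr, h2⟩
  refine ⟨_, (Finset.mul_prod_erase _ (fun p => p ^ B) hmem).symm, fun h => ?_⟩
  obtain ⟨p, hp, h1⟩ := (hr.prime.dvd_finset_prod_iff _).1 h
  rw [Finset.mem_erase, Finset.mem_filter] at hp
  exact hp.1 ((Nat.prime_dvd_prime_iff_eq hr hp.2.2.1).1 (hr.dvd_of_dvd_pow h1)).symm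

/-- for every prime power there is a larger one that controls it -/
theorem exists_exp {B C r : ℕ} (hr : r.Prime) (h2 : ¬ r ∣ 2 * C) :
    ∃ f c, LL B C = r ^ f * c ∧ ¬ r ∣ c ∧ ∀ e, 1 ≤ e → B < r ^ (e + f) := by
  have hr2 := hr.two_le
  by_cases hrB : r ≤ B
  · obtain ⟨c, h3, h4⟩ := LL_eq hr h2 hrB
    refine ⟨B, c, h3, h4, fun e he => ?_⟩
    calc B < 2 ^ B := Nat.lt_two_pow_self
      _ ≤ r ^ B := Nat.pow_le_pow_left hr2 B
      _ ≤ r ^ (e + B) := Nat.pow_le_pow_right hr.pos (by omega)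
  · refine ⟨0, LL B C, by simp, fun h => hrB (prime_dvd_LL hr h).1, fun e he => ?_⟩
    calc B < r := by omega
      _ = r ^ 1 := (pow_one r).symm
      _ ≤ r ^ (e + 0) := Nat.pow_le_pow_right hr.pos (by omega)

theorem MM_pos (B C : ℕ) : 0 < MM B C := by
  unfold MM
  exact Finset.prod_pos (fun p hp => (Finset.mem_filter.1 hp).2.1.pos)

theorem odd_MM (B C : ℕ) : Odd (MM B C) := by
  rw [← Nat.not_even_iff_odd, even_iff_two_dvd]
  intro h
  unfold MM at h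
  obtain ⟨p, hp, h1⟩ := (Nat.prime_two.prime.dvd_finset_prod_iff _).1 h
  rw [Finset.mem_filter] at hp
  exact hp.2.2 ((Nat.prime_dvd_prime_iff_eq Nat.prime_two hp.2.1).1 h1).symm

theorem dvd_MM {B C r : ℕ} (hr : r.Prime) (h2 : r ≠ 2) (h : r ≤ B + C) : r ∣ MM B C := by
  unfold MM
  refine Finset.dvd_prod_of_mem (fun p => p) ?_
  rw [Finset.mem_filter, Finset.mem_range]
  exact ⟨by omega, hr, h2⟩

/-! ### Even multiples -/

lemma ev_ne {N : ℤ} (h : N ≠ 0) : (2 * N) • P0 ≠ 0 := zsmul_P0_ne_zero (by omega)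

lemma ev_inj {m n : ℤ} (h : (2 * m) • P0 = (2 * n) • P0) : m = n := by
  have := zsmul_inj h
  omega

lemma ev_zero_iff {N : ℤ} : (2 * N) • P0 = 0 ↔ N = 0 := by
  constructor
  · intro h
    by_contra hne
    exact ev_ne hne h
  · rintro rfl; simp

lemma nsmul_ev (c : ℕ) (N : ℤ) : c • ((2 * N) • P0) = (2 * (c * N)) • P0 := by
  rw [← natCast_zsmul, ← mul_zsmul]
  congr 1
  ring

lemma den_pos_iff {q : ℕ} {N : ℤ} (hN : N ≠ 0) : q ∣ (xc ((2 * N) • P0)).den ↔ Dv q (2 * N) := by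
  unfold Dv
  have : (2 * N) ≠ 0 := by omega
  simp only [this, false_or]

/-- the doubles of all points are the even multiples of `P0` -/
theorem evPt_iff (V : EC.Point) : EvPt V ↔ ∃ W, V = W + W := by
  constructor
  · rintro ⟨N, rfl⟩
    exact ⟨N • P0, by rw [← add_zsmul]; congr 1; ring⟩
  · rintro ⟨W, rfl⟩
    by_cases hW : W = 0
    · exact ⟨0, by rw [hW]; simp⟩
    obtain ⟨x, y, h, hq⟩ := exists_hasX hW
    by_cases hy0 : y = 0
    · subst hy0
      have h1 : W = -W := by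
        rw [hq, neg_pt]; exact pt_congr rfl (by simp)
      refine ⟨0, ?_⟩
      nth_rw 1 [h1]
      simp
    · have hG : Good x := ⟨y, hy0, h⟩
      have hX : HasX W x := ⟨y, h, hq⟩
      have hx0 : x ≠ 0 := by
        rintro rfl
        apply hy0
        have : y ^ 2 = 0 := by rw [h]; norm_num
        exact pow_eq_zero_iff (by norm_num) |>.1 this
      have h2 := hasX_two_smul hX hx0
      obtain ⟨k, hk0, hk, -⟩ := good_even hG
      rcases HasX.eq_or_neg h2 hk with h3 | h3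
      · exact ⟨k, h3⟩
      · exact ⟨-k, by rw [h3, ← neg_zsmul]; congr 1; ring⟩

/-! ### Divisibility of indices -/

theorem relP_sound {B C : ℕ} {R : Set ℚ} (hR : Cls B C R) {N M : ℤ}
    (hN : ∀ r : ℕ, r.Prime → (r : ℤ) ∣ N → ¬ r ∣ 2 * C)
    (h : RelP B C R ((2 * N) • P0) ((2 * M) • P0)) : N ∣ M := by
  rcases h with h | ⟨h1, h2, h3⟩
  · rw [ev_zero_iff] at h
    rw [h]; exact dvd_zero _
  have hM0 : M ≠ 0 := fun h => h2 (by rw [h]; simp)
  have hN0 : N ≠ 0 := fun h => h1 (by rw [h]; simp)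
  have hc0 : ((C * LL B C : ℕ) : ℤ) ≠ 0 := by
    have := LL_pos B C
    have := hR.pos
    positivity
  rw [nsmul_ev, nsmul_ev] at h3
  rw [← Int.natAbs_dvd_natAbs, Nat.dvd_iff_prime_pow_dvd_dvd]
  intro r e hr hre
  rcases Nat.eq_zero_or_pos e with rfl | he
  · simp
  have hreZ : (r : ℤ) ^ e ∣ N := by
    rw [← Int.natAbs_dvd_natAbs, Int.natAbs_pow, Int.natAbs_natCast]
    exact hre
  have hr2 : ¬ r ∣ 2 * C := hN r hr ((dvd_pow_self (r : ℤ) (by omega)).trans hreZ)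
  obtain ⟨f, c', hL, hc, hB⟩ := exists_exp (B := B) hr hr2
  obtain ⟨q, hq, ⟨c, hcC, hqj⟩, hqR⟩ := hR.live r (e + f) hr hr2 (by omega) (hB e he)
  have hdv : Dv q (2 * (((C * LL B C : ℕ) : ℤ) * N)) := by
    rw [hqj.2]
    push_cast
    rw [hL, pow_add]
    push_cast
    obtain ⟨t, ht⟩ := hreZ
    obtain ⟨s, hs⟩ := Int.natCast_dvd_natCast.2 hcC
    push_cast at hs
    refine ⟨s * c' * t, ?_⟩
    have h5 : 2 * ((C : ℤ) * ((r : ℤ) ^ f * c') * N) = (2 * C) * ((r : ℤ) ^ f * c' * N) := by ring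
    rw [h5, hs, ht]
    ring
  rw [← den_pos_iff (mul_ne_zero hc0 hN0)] at hdv
  have hdv' := denDvd_sound h3 hq hqR hdv
  rw [den_pos_iff (mul_ne_zero hc0 hM0), hqj.2] at hdv'
  have hco : Nat.Coprime (r ^ e) (2 * C * c') := by
    refine Nat.Coprime.pow_left e ?_
    rw [Nat.Prime.coprime_iff_not_dvd hr]
    intro h
    rcases (hr.dvd_mul).1 h with h | h
    · exact hr2 h
    · exact hc h
  have h6 : r ^ (e + f) ∣ 2 * (C * LL B C * M.natAbs) := by
    have h7 : ((r ^ (e + f) : ℕ) : ℤ) ∣ 2 * (((C * LL B C : ℕ) : ℤ) * M) := by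
      refine dvd_trans ?_ hdv'
      push_cast
      exact dvd_mul_left _ _
    have h8 := Int.natCast_dvd.1 h7
    rw [Int.natAbs_mul, Int.natAbs_mul, Int.natAbs_natCast] at h8
    exact h8
  have h9 : r ^ f * r ^ e ∣ r ^ f * ((2 * C * c') * M.natAbs) := by
    rw [← pow_add, add_comm f e]
    rw [hL] at h6
    refine h6.trans (dvd_of_eq ?_)
    ring
  have h10 := Nat.dvd_of_mul_dvd_mul_left (pow_pos hr.pos f) h9
  exact hco.dvd_of_dvd_mul_left h10

theorem relP_complete {B C : ℕ} {R : Set ℚ} (hR : Cls B C R) {N M : ℤ} (hN : N ≠ 0)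
    (h : N ∣ M) : RelP B C R ((2 * N) • P0) ((2 * M) • P0) := by
  by_cases hM : M = 0
  · exact Or.inl (by rw [hM]; simp)
  have hc0 : ((C * LL B C : ℕ) : ℤ) ≠ 0 := by
    have := LL_pos B C
    have := hR.pos
    positivity
  refine Or.inr ⟨ev_ne hN, ev_ne hM, denDvd_complete hR.int ?_⟩
  obtain ⟨t, rfl⟩ := h
  have e : (C * LL B C) • ((2 * (N * t)) • P0) = t • ((C * LL B C) • ((2 * N) • P0)) := by
    rw [nsmul_ev, nsmul_ev, ← mul_zsmul]
    congr 1
    ring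
  rw [e]
  refine den_dvd_smul ?_ ?_
  · rw [nsmul_ev]; exact ev_ne (mul_ne_zero hc0 hN)
  · rw [← e, nsmul_ev]; exact ev_ne (mul_ne_zero hc0 hM)

end Vale.Agent.P027.D1
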