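import Vale.Agent.P027.R4.H788.Points

set_option linter.all false

/-! The coordinates of the multiples of `P0` as sequences of rational numbers. -/

namespace Vale.Agent.P027.D1

open Vale.Agent.P345 Vale.Agent.P027 Vale.Agent.P027.HT

theorem exists_y : ∃ y : ℤ → ℚ, ∀ n : ℤ, n ≠ 0 →
    ∃ h : y n ^ 2 = xc (n • P0) ^ 3 - 2 * xc (n • P0), n • P0 = pt (xc (n • P0)) (y n) h := by
  have h : ∀ n : ℤ, ∃ y : ℚ, n ≠ 0 →
      ∃ h : y ^ 2 = xc (n • P0) ^ 3 - 2 * xc (n • P0), n • P0 = pt (xc (n • P0)) y h := by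
    intro n
    by_cases hn : n = 0
    · exact ⟨0, fun h => absurd hn h⟩
    · obtain ⟨y, h1, h2⟩ := hasX_xc (zsmul_P0_ne_zero hn)
      exact ⟨y, fun _ => ⟨h1, h2⟩⟩
  choose y hy using h
  exact ⟨y, hy⟩

/-- the coded tuples -/
theorem code_iff {y : ℤ → ℚ} (hy : ∀ n : ℤ, n ≠ 0 →
    ∃ h : y n ^ 2 = xc (n • P0) ^ 3 - 2 * xc (n • P0), n • P0 = pt (xc (n • P0)) (y n) h)
    (a : ℤ) (z w : ℚ) : (∃ e : w ^ 2 = z ^ 3 - 2 * z, pt z w e = (2 * a + 1) • P0) ↔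
      z = xc ((2 * a + 1) • P0) ∧ w = y (2 * a + 1) := by
  obtain ⟨h1, h2⟩ := hy (2 * a + 1) (by omega)
  constructor
  · rintro ⟨e, h⟩
    rw [h2] at h
    unfold pt at h
    rw [WeierstrassCurve.Affine.Point.some.injEq] at h
    exact h
  · rintro ⟨rfl, rfl⟩
    exact ⟨h1, h2.symm⟩

end Vale.Agent.P027.D1
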