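import Mathlib

/-! Squares of odd integers through powers of two and divisibility by odd integers. -/

namespace Vale.Agent.P027.D1

/-- plus or minus a power of two -/
def IsP (N : ℤ) : Prop := ∃ k : ℕ, N = 2 ^ k ∨ N = -2 ^ k

lemma val_two_pow (k : ℕ) : padicValInt 2 (2 ^ k) = k := by
  rw [padicValInt, Int.natAbs_pow]
  simp

lemma val_neg_two_pow (k : ℕ) : padicValInt 2 (-2 ^ k) = k := by
  rw [padicValInt, Int.natAbs_neg, Int.natAbs_pow]
  simp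

lemma IsP.eq {N : ℤ} (h : IsP N) : N = 2 ^ padicValInt 2 N ∨ N = -2 ^ padicValInt 2 N := by
  obtain ⟨k, rfl | rfl⟩ := h
  · rw [val_two_pow]; exact Or.inl rfl
  · rw [val_neg_two_pow]; exact Or.inr rfl

lemma four_pow_mod (k : ℕ) : (3 : ℤ) ∣ 4 ^ k - 1 := by
  have := sub_dvd_pow_sub_pow (4 : ℤ) 1 k
  rw [one_pow] at this
  norm_num at this
  exact this

lemma IsP.pos_of_mod {N : ℤ} (h : IsP N) {k : ℕ} (hk : padicValInt 2 N = 2 * k)
    (h3 : (3 : ℤ) ∣ N - 1) : N = 2 ^ (2 * k) := by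
  rcases h.eq with h1 | h1
  · rw [hk] at h1; exact h1
  · exfalso
    rw [hk] at h1
    have h2 : N = -(4 ^ k) := by rw [h1, pow_mul]; norm_num
    have h4 := four_pow_mod k
    rw [h2] at h3
    omega

/-- soundness -/
theorem sq_sound {x z N N2 N4 N8 : ℤ} (hN : IsP N) (hN4 : IsP N4)
    (hN8 : IsP N8) (he : Even N) (h2 : padicValInt 2 N2 = 2 * padicValInt 2 N)
    (h4 : padicValInt 2 N4 = 2 * padicValInt 2 N2) (h8 : padicValInt 2 N8 = 2 * padicValInt 2 N4)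
    (h3 : (3 : ℤ) ∣ N4 - 1) (h3' : (3 : ℤ) ∣ N8 - 1) (d1 : x ∣ N - 1) (d2 : z ∣ N - 1)
    (d3 : N4 - x ∣ N8 - z) : z = x ^ 2 := by
  obtain ⟨k, hk⟩ : ∃ k, k = padicValInt 2 N := ⟨_, rfl⟩
  have e4 : N4 = N ^ 4 := by
    rw [hN4.pos_of_mod h4 h3, h2, ← hk]
    rcases hN.eq with h | h
    · rw [h, ← hk]; ring
    · rw [h, ← hk]; ring
  have e8 : N8 = N ^ 8 := by
    rw [hN8.pos_of_mod h8 h3', h4, h2, ← hk]
    rcases hN.eq with h | h
    · rw [h, ← hk]; ring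
    · rw [h, ← hk]; ring
  have hN0 : N ≠ 0 := by
    rcases hN.eq with h | h
    · rw [h]; positivity
    · rw [h]; simp
  have hN1 : N - 1 ≠ 0 := by
    intro h
    have : N = 1 := by omega
    rw [this] at he
    exact absurd he (by decide)
  obtain ⟨m, hm⟩ : ∃ m : ℤ, m = |N| := ⟨_, rfl⟩
  have hm2 : 2 ≤ m := by
    obtain ⟨t, ht⟩ := he
    rw [hm, ht]
    rcases lt_trichotomy t 0 with h | h | h
    · rw [abs_of_neg (by omega)]; omega
    · exact absurd (by rw [ht, h]; rfl) hN0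
    · rw [abs_of_pos (by omega)]; omega
  have hx : |x| ≤ m + 1 := by
    refine (Int.le_of_dvd (abs_pos.2 hN1) ((abs_dvd_abs _ _).2 d1)).trans ?_
    calc |N - 1| ≤ |N| + |1| := abs_sub _ _
      _ = m + 1 := by rw [hm]; rfl
  have hz : |z| ≤ m + 1 := by
    refine (Int.le_of_dvd (abs_pos.2 hN1) ((abs_dvd_abs _ _).2 d2)).trans ?_
    calc |N - 1| ≤ |N| + |1| := abs_sub _ _
      _ = m + 1 := by rw [hm]; rfl
  have hd : N4 - x ∣ x ^ 2 - z := by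
    have h5 : N8 - z = (N4 - x) * (N4 + x) + (x ^ 2 - z) := by rw [e8, e4]; ring
    rw [h5] at d3
    exact (dvd_add_right (dvd_mul_right _ _)).1 d3
  by_contra hne
  have h6 : x ^ 2 - z ≠ 0 := fun h => hne (by linarith)
  have h7 : |N4 - x| ≤ |x ^ 2 - z| := Int.le_of_dvd (abs_pos.2 h6) ((abs_dvd_abs _ _).2 hd)
  have h8 : |x ^ 2 - z| ≤ (m + 1) ^ 2 + (m + 1) := by
    calc |x ^ 2 - z| ≤ |x ^ 2| + |z| := abs_sub _ _
      _ = |x| ^ 2 + |z| := by rw [abs_pow]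
      _ ≤ (m + 1) ^ 2 + (m + 1) := by
        have := abs_nonneg x
        nlinarith
  have h9 : N4 - x ≤ |N4 - x| := le_abs_self _
  have h10 : N4 = m ^ 4 := by rw [e4, hm]; exact (Even.pow_abs (by decide) N).symm
  have h11 : x ≤ |x| := le_abs_self _
  have h12 : m ^ 4 ≤ (m + 1) ^ 2 + (m + 1) + (m + 1) := by linarith
  have h13 : 2 * m ≤ m ^ 2 := by nlinarith
  have h14 : 4 * m ^ 2 ≤ m ^ 4 := by nlinarith
  nlinarith

/-- completeness -/
theorem sq_complete {x : ℤ} (hx : Odd x) {M : ℕ} (hM : Odd M) : ∃ k : ℕ, 1 ≤ k ∧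
    x ∣ 2 ^ k - 1 ∧ x ^ 2 ∣ 2 ^ k - 1 ∧
    (3 : ℤ) ∣ 2 ^ (4 * k) - 1 ∧ (3 : ℤ) ∣ 2 ^ (8 * k) - 1 ∧ (M : ℤ) ∣ 2 ^ (4 * k) - 1 ∧
    (2 : ℤ) ^ (4 * k) - x ∣ 2 ^ (8 * k) - x ^ 2 := by
  have hx0 : x ≠ 0 := by rintro rfl; exact absurd hx (by decide)
  obtain ⟨n, hn⟩ : ∃ n : ℕ, n = x.natAbs ^ 2 * M := ⟨_, rfl⟩
  have hn0 : 0 < n := by
    rw [hn]
    have := Int.natAbs_pos.2 hx0
    have := hM.pos
    positivity
  have hco : Nat.Coprime 2 n := by
    rw [hn]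
    refine Nat.Coprime.mul_right (Nat.Coprime.pow_right 2 ?_) (Nat.coprime_two_left.2 hM)
    rw [Nat.coprime_two_left]
    exact Int.natAbs_odd.2 hx
  have h0 : ((n : ℕ) : ℤ) ∣ (2 : ℤ) ^ Nat.totient n - 1 := by
    have h2 := Nat.ModEq.pow_totient hco
    have h4 := (Nat.modEq_iff_dvd.1 h2.symm)
    push_cast at h4
    exact h4
  have hnz : ((n : ℕ) : ℤ) = x ^ 2 * M := by
    rw [hn]; push_cast; rw [sq_abs]
  have h1 : x ^ 2 ∣ 2 ^ Nat.totient n - 1 := by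
    refine dvd_trans ?_ h0
    rw [hnz]; exact dvd_mul_right _ _
  have h1' : (M : ℤ) ∣ 2 ^ Nat.totient n - 1 := by
    refine dvd_trans ?_ h0
    rw [hnz]; exact dvd_mul_left _ _
  refine ⟨Nat.totient n, Nat.totient_pos.2 hn0, (dvd_pow_self x (by norm_num)).trans h1, h1,
    ?_, ?_, ?_, ?_⟩
  · have := four_pow_mod (2 * Nat.totient n)
    rwa [show (4 : ℤ) = 2 ^ 2 by norm_num, ← pow_mul,
      show 2 * (2 * Nat.totient n) = 4 * Nat.totient n by ring] at this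
  · have := four_pow_mod (4 * Nat.totient n)
    rwa [show (4 : ℤ) = 2 ^ 2 by norm_num, ← pow_mul,
      show 2 * (4 * Nat.totient n) = 8 * Nat.totient n by ring] at this
  · refine h1'.trans ?_
    have := sub_dvd_pow_sub_pow ((2 : ℤ) ^ Nat.totient n) 1 4
    rw [one_pow, ← pow_mul, mul_comm (Nat.totient n) 4] at this
    exact this
  · refine ⟨2 ^ (4 * Nat.totient n) + x, ?_⟩
    ring

end Vale.Agent.P027.D1
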