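import Vale.Agent.P027.Bdl.B1
import Vale.Agent.P027.R4.H788.Sq

set_option linter.all false

/-! Definitions for the natural density-one theorem (problem P027, crux 27). The curve is
`y^2 = x^3 - 2x`, `P0 = (-1, 1)`; `xc` is the first coordinate (`HT.xc`), zero at the origin. -/

namespace Vale.Agent.P027.D1

open MvPolynomial Vale.Agent.P345 Vale.Agent.P027 Vale.Agent.P027.HT

/-- `q` divides the denominator of the first coordinate of `n P0` -/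
def Dv (q : ℕ) (n : ℤ) : Prop := n = 0 ∨ q ∣ (xc (n • P0)).den

/-- `m` is the order of `P0` modulo `q` -/
def Ord (q m : ℕ) : Prop := 0 < m ∧ ∀ n : ℤ, Dv q n ↔ (m : ℤ) ∣ n

/-- the class of the sets `R` -/
structure Cls (B C : ℕ) (R : Set ℚ) : Prop where
  pos : 0 < C
  int : ∀ z : ℤ, (z : ℚ) ∈ R
  two : ∀ k : ℕ, 1 ≤ k → xc ((C * 2 ^ k : ℤ) • P0) ∈ R
  live : ∀ r e : ℕ, r.Prime → ¬ r ∣ 2 * C → 1 ≤ e → B < r ^ e →
    ∃ q : ℕ, q.Prime ∧ (∃ c, c ∣ 2 * C ∧ Ord q (c * r ^ e)) ∧ ∀ t ∈ R, ¬ q ∣ t.den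

/-! ### Predicates on points (row G proves the equivalences, row C that they are `RDio`) -/

/-- even multiples of `P0` (the doubles of all points) -/
def EvPt (V : EC.Point) : Prop := ∃ N : ℤ, V = (2 * N) • P0

/-- the product of the powers `p ^ B` of the primes `p ≤ B` that do not divide `2 C` -/
def LL (B C : ℕ) : ℕ := ∏ p ∈ (Finset.range (B + 1)).filter (fun p => p.Prime ∧ ¬ p ∣ 2 * C), p ^ B

/-- the product of the odd primes up to `B + C` -/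
def MM (B C : ℕ) : ℕ := ∏ p ∈ (Finset.range (B + C + 1)).filter (fun p => p.Prime ∧ p ≠ 2), p

/-- the denominator of `x` divides the denominator of `x'`, in `R` -/
def DenDvd (R : Set ℚ) (x x' : ℚ) : Prop :=
  ∃ a ∈ R, ∃ d ∈ R, ∃ u ∈ R, ∃ v ∈ R, ∃ a' ∈ R, ∃ d' ∈ R, ∃ u' ∈ R, ∃ v' ∈ R, ∃ w ∈ R,
    x * d = a ∧ u * a + v * d = 1 ∧ x' * d' = a' ∧ u' * a' + v' * d' = 1 ∧ d' = w * d

/-- divisibility of indices, for index of `V` prime to `2 C` -/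
def RelP (B C : ℕ) (R : Set ℚ) (V W : EC.Point) : Prop :=
  W = 0 ∨ (V ≠ 0 ∧ W ≠ 0 ∧
    DenDvd R (xc ((C * LL B C) • V)) (xc ((C * LL B C) • W)))

/-- indices prime to `L` -/
def CopP (L : ℕ) (V : EC.Point) : Prop :=
  ∃ c < L, Nat.Coprime c L ∧ ∃ K, EvPt K ∧ V = c • ((2 : ℕ) • P0) + L • K

/-- indices plus or minus a power of two -/
def PowP (B C : ℕ) (R : Set ℚ) (V : EC.Point) : Prop :=
  EvPt V ∧ V ≠ 0 ∧ xc (C • V) ∈ R ∧ CopP (MM B C) V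

/-- the two-adic valuation of the index is doubled -/
def V2P (V W : EC.Point) : Prop :=
  0 ≤ padicValRat 2 (xc W / (4 * xc V ^ 2)) ∧ 0 ≤ padicValRat 2 (4 * xc V ^ 2 / xc W)

/-- index one modulo `m` -/
def OneP (m : ℕ) (V : EC.Point) : Prop := ∃ K, EvPt K ∧ V - 2 • P0 = m • K

/-- index `x ^ 2` for index `x = -1` modulo `2 C` -/
def SqOP (B C : ℕ) (R : Set ℚ) (V W : EC.Point) : Prop :=
  ∃ N N2 N4 N8 : EC.Point, (PowP B C R N ∧ PowP B C R N2 ∧ PowP B C R N4 ∧ PowP B C R N8) ∧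
    (∃ K, EvPt K ∧ N = 2 • K) ∧ (V2P N N2 ∧ V2P N2 N4 ∧ V2P N4 N8) ∧
    (OneP 3 N4 ∧ OneP 3 N8 ∧ OneP (MM B C) N4) ∧
    RelP B C R V (N - 2 • P0) ∧ RelP B C R W (N - 2 • P0) ∧ RelP B C R (N4 - V) (N8 - W)

/-- index `x ^ 2` for arbitrary index `x` -/
def SqP (B C : ℕ) (R : Set ℚ) (V W : EC.Point) : Prop :=
  EvPt V ∧ EvPt W ∧
    SqOP B C R ((2 * C) • V - 2 • P0) ((4 * C ^ 2) • W - (4 * C) • V + 2 • P0)

/-- product of indices -/
def MulP (B C : ℕ) (R : Set ℚ) (V W Z : EC.Point) : Prop :=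
  EvPt Z ∧ ∃ A D E : EC.Point, SqP B C R V A ∧ SqP B C R W D ∧ SqP B C R (V + W) E ∧
    E = A + D + 2 • Z

/-- output of row G -/
def RowG : Prop := ∀ (B C : ℕ) (R : Set ℚ), Cls B C R → ∀ V W Z : EC.Point,
  (MulP B C R V W Z ↔
    ∃ m n : ℤ, V = (2 * m) • P0 ∧ W = (2 * n) • P0 ∧ Z = (2 * (m * n)) • P0)

/-! ### The calculus (row C) -/

/-- environment: `v` for the free variables, `y` for the bound ones (in pairs, the second member of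
each pair is in `R`) -/
def envR (v : ℕ → ℚ) (y : ℕ → Fin 2 → ℚ) : ℕ ⊕ ℕ × Fin 2 → ℚ :=
  Sum.elim v (fun ij => y ij.1 ij.2)

/-- positive existential predicates with variables in `ℚ` and variables in `R`, uniformly for all
`R` with `C R` -/
def RDio (C : Set ℚ → Prop) (S : Set ℚ → (ℕ → ℚ) → Prop) : Prop :=
  ∃ p : MvPolynomial (ℕ ⊕ ℕ × Fin 2) ℤ, ∀ R, C R → ∀ v : ℕ → ℚ,
    S R v ↔ ∃ y : ℕ → Fin 2 → ℚ, aeval (envR v y) p = 0 ∧ ∀ i, y i 1 ∈ R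

/-- output of row C, first part: the predicates of row G are `RDio` -/
def RowC1 : Prop := ∀ (B J : ℕ) {F G H : (ℕ → ℚ) → EC.Point}, DPt F → DPt G → DPt H →
  RDio (Cls B J) (fun R v => MulP B J R (F v) (G v) (H v))

/-- output of row C, second part: finitely many variables (use `T2.pack`) -/
def RowC2 : Prop := ∀ (C : Set ℚ → Prop), (∀ R, C R → (0 : ℚ) ∈ R) →
  ∀ {k : ℕ} {S : Set ℚ → (Fin k → ℚ) → Prop}, RDio C (fun R v => S R (fun i => v i)) →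
    ∃ (m r : ℕ) (F : MvPolynomial (Fin k ⊕ Fin m ⊕ Fin r) ℤ), ∀ R R' : Set ℚ, C R →
      (∀ z : ℤ, (z : ℚ) ∈ R') → ∀ x : Fin k → ℚ,
      (S R x ↔ ∃ (u : Fin m → ℚ) (y : Fin r → ℚ), (∀ i, u i ∈ R) ∧ (∀ j, y j ∈ R') ∧
        aeval (Sum.elim x (Sum.elim u y)) F = 0)

/-! ### Assembly (row F) -/

/-- output of row F: one polynomial for a recursively enumerable set of tuples of integers, coded
by the points `(2 a + 1) P0` -/
def RowF : Prop := ∀ (B J k : ℕ) (S : Set (Fin k → ℤ)), REPred (fun a => a ∈ S) →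
  ∃ (m r : ℕ) (F : MvPolynomial ((Fin k × Fin 2) ⊕ Fin m ⊕ Fin r) ℤ), ∀ R R' : Set ℚ, Cls B J R →
    (∀ z : ℤ, (z : ℚ) ∈ R') → ∀ z : Fin k × Fin 2 → ℚ,
    ((∃ a ∈ S, ∀ i, ∃ e : z (i, 1) ^ 2 = z (i, 0) ^ 3 - 2 * z (i, 0),
        pt (z (i, 0)) (z (i, 1)) e = (2 * a i + 1) • P0) ↔
      ∃ (u : Fin m → ℚ) (y : Fin r → ℚ), (∀ i, u i ∈ R) ∧ (∀ j, y j ∈ R') ∧
        aeval (Sum.elim z (Sum.elim u y)) F = 0)

/-! ### Primitive primes (rows V, H) -/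

/-- output of rows V, H -/
def RowH : Prop := ∃ B : ℕ, ∀ r e : ℕ, r.Prime → r ≠ 2 → 1 ≤ e → B < r ^ e →
  ∃ q : ℕ, q.Prime ∧ Ord q (r ^ e)

/-- primes of odd order are one modulo four -/
def RowM : Prop := ∀ q m : ℕ, q.Prime → Odd m → Ord q m → q % 4 = 1

/-- every prime has an order (row G) -/
def RowO : Prop := ∀ q : ℕ, q.Prime → ∀ n : ℕ, 0 < n → Dv q n → ∃ m : ℕ, Ord q m ∧ m ∣ n

end Vale.Agent.P027.D1
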