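import Vale.Agent.P027.R4.H788.Points

set_option linter.all false

/-! The first coordinate determines the index up to sign. -/

namespace Vale.Agent.P027.D1

open Vale.Agent.P345 Vale.Agent.P027 Vale.Agent.P027.HT

/-- first coordinates of multiples of `P0` -/
theorem xc_inj {m n : ℤ} (hm : m ≠ 0) (hn : n ≠ 0)
    (h : xc (m • P0) = xc (n • P0)) : m = n ∨ m = -n := by
  have h1 : HasX (m • P0) (xc (n • P0)) := by
    rw [← h]
    exact hasX_xc (zsmul_P0_ne_zero hm)
  have h2 := h1.eq_or_neg (hasX_xc (zsmul_P0_ne_zero hn))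
  rcases h2 with h2 | h2
  · left
    by_contra hne
    have h3 : m - n ≠ 0 := by omega
    refine zsmul_P0_ne_zero h3 ?_
    rw [sub_zsmul, h2]
    exact add_neg_cancel _
  · right
    by_contra hne
    have h3 : m + n ≠ 0 := by omega
    refine zsmul_P0_ne_zero h3 ?_
    rw [add_zsmul, h2]
    exact neg_add_cancel _

end Vale.Agent.P027.D1
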