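import Vale.Agent.P027.R4.H788.Arith

set_option linter.all false

/-! Primes of odd order are one modulo four. -/

namespace Vale.Agent.P027.D1

open Vale.Agent.P345 Vale.Agent.P027 Vale.Agent.P027.HT

theorem rowM : RowM := by
  intro q m hq hm ho
  have : Fact q.Prime := ⟨hq⟩
  have hmz : Odd (m : ℤ) := by exact_mod_cast hm
  have hm0 : (m : ℤ) ≠ 0 := by exact_mod_cast ho.1.ne'
  have h1 : q ∣ (xc ((m : ℤ) • P0)).den := by
    rcases (ho.2 m).2 dvd_rfl with h | h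
    · exact absurd h hm0
    · exact h
  obtain ⟨c, d, hcd⟩ := oddForm_of_hasX hmz (hasX_odd hmz)
  obtain ⟨a, -, ha⟩ := exists_BType hcd.c_pos hcd.d_pos hcd.cop (hcd.eq ▸ hcd.hasX)
  have hqd : q ∣ d := by
    have hd0 : (d : ℚ) ≠ 0 := by exact_mod_cast hcd.d_pos.ne'
    have h2 : (xc ((m : ℤ) • P0)).den ∣ d ^ 2 := by
      have h3 : xc ((m : ℤ) • P0) = Rat.divInt (-(c : ℤ) ^ 2) ((d : ℤ) ^ 2) := by
        rw [hcd.eq, Rat.divInt_eq_div]
        push_cast
        ring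
      rw [h3]
      have h4 := Rat.den_dvd (-(c : ℤ) ^ 2) ((d : ℤ) ^ 2)
      exact_mod_cast h4
    exact hq.dvd_of_dvd_pow (h1.trans h2)
  have hq2 : q ≠ 2 := by
    rintro rfl
    have := hcd.d_odd
    omega
  have hqc : ¬ q ∣ c := by
    intro h
    have h2 := Nat.dvd_gcd h hqd
    rw [hcd.cop.gcd_eq_one] at h2
    exact hq.one_lt.ne' (Nat.dvd_one.1 h2)
  -- minus one is a square
  have hc0 : (c : ZMod q) ≠ 0 := by
    rw [Ne, ZMod.natCast_eq_zero_iff]
    exact hqc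
  have hd0 : (d : ZMod q) = 0 := by
    rw [ZMod.natCast_eq_zero_iff]
    exact hqd
  have h5 : (2 : ZMod q) * (d : ZMod q) ^ 4 = (c : ZMod q) ^ 4 + (a : ZMod q) ^ 2 := by
    exact_mod_cast congrArg (fun n : ℕ => (n : ZMod q)) ha
  rw [hd0] at h5
  have h6 : IsSquare (-1 : ZMod q) := by
    refine ⟨(a : ZMod q) / (c : ZMod q) ^ 2, ?_⟩
    field_simp
    linear_combination h5
  have h7 := (ZMod.exists_sq_eq_neg_one_iff (p := q)).1 h6
  have h8 := hq.eq_two_or_odd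
  omega

end Vale.Agent.P027.D1
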