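import Vale.Agent.P027.R4.H788.Arith

set_option linter.all false

/-! Powers of two, squares and products of indices are positive existential over `R`. -/

namespace Vale.Agent.P027.D1

open Vale.Agent.P345 Vale.Agent.P027 Vale.Agent.P027.HT

/-! ### The two-adic valuation -/

lemma norm_two_four : padicNorm 2 4 = (4 : ℚ)⁻¹ := by
  have h := padicNorm.padicNorm_p (p := 2) (by norm_num)
  have h2 : padicNorm 2 2 = (2 : ℚ)⁻¹ := by exact_mod_cast h
  rw [show (4 : ℚ) = 2 * 2 by norm_num, padicNorm.mul, h2]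
  norm_num

lemma double_norm_two {V : EC.Point} {a : ℚ} (hV : HasX V a) (ha : 2 ≤ padicNorm 2 a) :
    ∃ b, HasX (V + V) b ∧ padicNorm 2 b = 4 * padicNorm 2 a := by
  have ha0 : 0 < padicNorm 2 a := by linarith
  have ha' : a ≠ 0 := ne_zero_of_norm (by norm_num) ha
  refine ⟨_, hasX_two_smul hV ha', ?_⟩
  have n2 : padicNorm 2 2 ≤ 1 := by exact_mod_cast padicNorm.of_int (p := 2) 2
  have h2 : 1 < padicNorm 2 (a * a) := by rw [padicNorm.mul]; nlinarith only [ha]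
  have h3 : padicNorm 2 ((a ^ 2 + 2) ^ 2) = padicNorm 2 a ^ 4 := by
    rw [sq, sq, padicNorm.mul, norm_add_left 2 (by linarith), padicNorm.mul]
    ring
  rw [padicNorm.div, padicNorm.mul, h3, large_cubic 2 (B := 2) (by norm_num) ha, norm_two_four]
  field_simp

lemma norm_two_P0 : padicNorm 2 (9 / 4) = 4 := by
  have h1 : (9 : ℚ) / 4 = ((9 : ℤ) : ℚ) / 4 := by norm_num
  rw [h1, padicNorm.div, norm_two_four, (padicNorm.int_eq_one_iff 9).2 (by norm_num)]
  norm_num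

lemma pow_two_point (j : ℕ) : ∃ x, HasX ((2 * 2 ^ j : ℤ) • P0) x ∧ padicNorm 2 x = 4 ^ (j + 1) := by
  induction j with
  | zero =>
    refine ⟨_, by simpa only [pow_zero, mul_one] using hasX_two_P0, ?_⟩
    rw [norm_two_P0]; norm_num
  | succ j ih =>
    obtain ⟨x, hx, hn⟩ := ih
    have h9 : (2 : ℚ) ≤ padicNorm 2 x := by
      rw [hn]
      calc (2 : ℚ) ≤ 4 ^ 1 := by norm_num
        _ ≤ 4 ^ (j + 1) := pow_le_pow_right₀ (by norm_num) (by omega)
    obtain ⟨b, hb, hbn⟩ := double_norm_two hx h9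
    refine ⟨b, ?_, ?_⟩
    · have e : (2 * 2 ^ (j + 1) : ℤ) • P0 = (2 * 2 ^ j : ℤ) • P0 + (2 * 2 ^ j : ℤ) • P0 := by
        rw [← add_zsmul]; congr 1; ring
      rw [e]; exact hb
    · rw [hbn, hn]; ring

/-- the two-adic valuation of the coordinate of `2 k P0` -/
theorem val_two {k : ℤ} (hk : k ≠ 0) :
    padicValRat 2 (xc ((2 * k) • P0)) = -2 - 2 * (padicValInt 2 k : ℤ) := by
  obtain ⟨j, m, hm, hkm⟩ : ∃ (j : ℕ) (m : ℤ), ¬ (2 : ℤ) ∣ m ∧ k = 2 ^ j * m := by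
    obtain ⟨m, hm⟩ := (FiniteMultiplicity.exists_eq_pow_mul_and_not_dvd
      (a := (2 : ℤ)) (b := k) (Int.finiteMultiplicity_iff.2 ⟨by norm_num, hk⟩))
    exact ⟨_, m, hm.2, hm.1⟩
  have hval : padicValInt 2 k = j := by
    rw [hkm, padicValInt.mul (by positivity) (by rintro rfl; simp at hm)]
    rw [padicValInt.eq_zero_of_not_dvd (by exact_mod_cast hm : ¬ ((2 : ℕ) : ℤ) ∣ m)]
    rw [padicValInt, Int.natAbs_pow]
    simp
  obtain ⟨a, ha, han⟩ := pow_two_point j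
  set V : EC.Point := (2 * 2 ^ j : ℤ) • P0 with hV
  have hB1 : (1 : ℚ) < 4 ^ (j + 1) := one_lt_pow₀ (by norm_num) (by omega)
  have hB2 : (1 : ℚ) < 4 ^ (j + 2) := one_lt_pow₀ (by norm_num) (by omega)
  have hV1 : V ∈ GG 2 (4 ^ (j + 1)) hB1 := by
    rw [mem_GG_of_hasX 2 hB1 ha, han]
  have hV2 : V ∉ GG 2 (4 ^ (j + 2)) hB2 := by
    rw [mem_GG_of_hasX 2 hB2 ha, han, not_le]
    exact pow_lt_pow_right₀ (by norm_num) (by omega)
  have h3V : V + V ∈ GG 2 (4 ^ (j + 2)) hB2 := by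
    have h9 : (2 : ℚ) ≤ padicNorm 2 a := by
      rw [han]
      calc (2 : ℚ) ≤ 4 ^ 1 := by norm_num
        _ ≤ 4 ^ (j + 1) := pow_le_pow_right₀ (by norm_num) (by omega)
    obtain ⟨b, hb, hbn⟩ := double_norm_two ha h9
    rw [mem_GG_of_hasX 2 hB2 hb, hbn, han]
    exact le_of_eq (by ring)
  have hW : (2 * k) • P0 = m • V := by
    rw [hV, ← mul_zsmul, hkm]; congr 1; ring
  have hW1 : m • V ∈ GG 2 (4 ^ (j + 1)) hB1 := AddSubgroup.zsmul_mem _ hV1 m
  have hW2 : m • V ∉ GG 2 (4 ^ (j + 2)) hB2 := by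
    intro hcon
    have h1 : ∀ i : ℤ, (2 * i) • V ∈ GG 2 (4 ^ (j + 2)) hB2 := by
      intro i
      have e : (2 * i) • V = i • (V + V) := by
        rw [mul_comm, mul_zsmul, two_zsmul]
      rw [e]; exact AddSubgroup.zsmul_mem _ h3V i
    have h2 : m % 2 = 1 := by omega
    have e : V = m • V - (2 * (m / 2)) • V := by
      rw [sub_eq_add_neg, ← sub_zsmul]
      have : m - 2 * (m / 2) = 1 := by omega
      rw [this, one_zsmul]
    exact hV2 (by rw [e]; exact AddSubgroup.sub_mem _ hcon (h1 _))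
  rw [mem_GG] at hW2
  push Not at hW2
  obtain ⟨x, hx, hlt⟩ := hW2
  have hge := hW1 x hx
  have hev := even_val 2 hx hB1 hge
  have hx0 : x ≠ 0 := ne_zero_of_norm (by positivity) hge
  rw [hW, xc_of_hasX hx, hval]
  rw [norm_eq_zpow 2 hx0] at hge hlt
  have e1 : ((4 : ℚ) ^ (j + 1)) = ((2 : ℕ) : ℚ) ^ ((2 * j + 2 : ℕ) : ℤ) := by
    rw [zpow_natCast, show (4 : ℚ) = (2 : ℕ) ^ 2 by norm_num, ← pow_mul]
    congr 1
  have e2 : ((4 : ℚ) ^ (j + 2)) = ((2 : ℕ) : ℚ) ^ ((2 * j + 4 : ℕ) : ℤ) := by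
    rw [zpow_natCast, show (4 : ℚ) = (2 : ℕ) ^ 2 by norm_num, ← pow_mul]
    congr 1
  rw [e1, zpow_le_zpow_iff_right₀ (by norm_num)] at hge
  rw [e2, zpow_lt_zpow_iff_right₀ (by norm_num)] at hlt
  rw [Int.even_iff] at hev
  push_cast at hge hlt
  omega

lemma xc_ne_zero {k : ℤ} (hk : k ≠ 0) : xc ((2 * k) • P0) ≠ 0 := by
  intro h
  have := val_two hk
  rw [h, padicValRat.zero] at this
  omega

theorem v2P_iff {m n : ℤ} (hm : m ≠ 0) (hn : n ≠ 0) :
    V2P ((2 * m) • P0) ((2 * n) • P0) ↔ padicValInt 2 n = 2 * padicValInt 2 m := by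
  unfold V2P
  have h1 := xc_ne_zero hm
  have h2 := xc_ne_zero hn
  have h4 : (4 : ℚ) ≠ 0 := by norm_num
  have h5 : 4 * xc ((2 * m) • P0) ^ 2 ≠ 0 := mul_ne_zero h4 (pow_ne_zero 2 h1)
  rw [padicValRat.div h2 h5, padicValRat.div h5 h2, padicValRat.mul h4 (pow_ne_zero 2 h1),
    padicValRat.pow, val_two hm, val_two hn, v24]
  push_cast
  omega

/-! ### Powers of two -/

lemma xc_neg (V : EC.Point) : xc (-V) = xc V := by
  by_cases h : V = 0
  · rw [h, neg_zero]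
  · exact xc_of_hasX (hasX_xc h).neg

theorem powP_sound {B C : ℕ} {R : Set ℚ} (hR : Cls B C R) {N : ℤ}
    (h : PowP B C R ((2 * N) • P0)) : IsP N := by
  obtain ⟨-, h0, hx, c, hc, hco, K, ⟨K', rfl⟩, hK⟩ := h
  have hN0 : N ≠ 0 := fun h => h0 (by rw [h]; simp)
  have hN : N = c + MM B C * K' := by
    have e : c • ((2 : ℕ) • P0) + MM B C • ((2 * K') • P0) = (2 * (c + MM B C * K')) • P0 := by
      rw [nsmul_ev, ← natCast_zsmul, ← natCast_zsmul, ← mul_zsmul, ← add_zsmul]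
      congr 1
      push_cast
      ring
    rw [e] at hK
    exact ev_inj hK
  -- every prime factor is two
  have hp : ∀ r : ℕ, r.Prime → r ∣ N.natAbs → r = 2 := by
    intro r hr hrN
    by_contra hr2
    have hrM : ¬ r ∣ MM B C := by
      intro h
      have h1 : (r : ℤ) ∣ (c : ℤ) := by
        have h2 : (r : ℤ) ∣ N := Int.natCast_dvd.2 hrN
        have h3 : (r : ℤ) ∣ (MM B C : ℤ) * K' := (Int.natCast_dvd_natCast.2 h).mul_right _
        rw [hN] at h2
        exact (dvd_add_left h3).1 h2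
      have h4 := Nat.dvd_gcd (Int.natCast_dvd_natCast.1 h1) h
      rw [hco.gcd_eq_one] at h4
      exact hr.one_lt.ne' (Nat.dvd_one.1 h4)
    have hrB : B + C < r := by
      by_contra hcon
      exact hrM (dvd_MM hr hr2 (by omega))
    have hrC : ¬ r ∣ 2 * C := by
      intro h
      rcases (hr.dvd_mul).1 h with h | h
      · exact hr2 ((Nat.prime_dvd_prime_iff_eq hr Nat.prime_two).1 h)
      · have := Nat.le_of_dvd hR.pos h
        omega
    obtain ⟨q, hq, ⟨c₁, hcC, hqj⟩, hqR⟩ := hR.live r 1 hr hrC le_rfl (by rw [pow_one]; omega)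
    refine hqR _ hx ?_
    rw [nsmul_ev]
    have hC0 : ((C : ℕ) : ℤ) ≠ 0 := by exact_mod_cast hR.pos.ne'
    rw [den_pos_iff (mul_ne_zero hC0 hN0), hqj.2]
    obtain ⟨t, ht⟩ := Int.natCast_dvd.2 hrN
    obtain ⟨s, hs⟩ := Int.natCast_dvd_natCast.2 hcC
    push_cast at hs
    refine ⟨s * t, ?_⟩
    push_cast
    have h5 : 2 * ((C : ℤ) * N) = (2 * C) * N := by ring
    rw [h5, hs, ht]
    ring
  obtain ⟨n, hn⟩ : ∃ n, n = N.natAbs.primeFactorsList.length := ⟨_, rfl⟩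
  have h1 : N.natAbs = 2 ^ n := by
    have := Nat.prod_primeFactorsList (Int.natAbs_ne_zero.2 hN0)
    rw [← this, hn]
    refine List.prod_eq_pow_card _ _ (fun r hr => ?_)
    exact hp r (Nat.prime_of_mem_primeFactorsList hr) (Nat.dvd_of_mem_primeFactorsList hr)
  refine ⟨n, ?_⟩
  rcases Int.natAbs_eq N with h2 | h2
  · left
    rw [h1] at h2
    push_cast at h2
    exact h2
  · right
    rw [h1] at h2
    push_cast at h2
    exact h2

theorem powP_complete {B C : ℕ} {R : Set ℚ} (hR : Cls B C R) {N : ℤ} (hN : IsP N) :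
    PowP B C R ((2 * N) • P0) := by
  have hN0 : N ≠ 0 := by
    rcases hN.eq with h | h
    · rw [h]; positivity
    · rw [h]; simp
  have hL := MM_pos B C
  refine ⟨⟨N, rfl⟩, ev_ne hN0, ?_, (N % MM B C).toNat, ?_, ?_, (2 * (N / MM B C)) • P0,
    ⟨_, rfl⟩, ?_⟩
  · obtain ⟨k, hk | hk⟩ := hN
    · have h1 := hR.two (k + 1) (by omega)
      rw [nsmul_ev]
      have e : 2 * ((C : ℤ) * N) = C * 2 ^ (k + 1) := by
        rw [hk]; ring
      rw [e]; exact h1
    · have h1 := hR.two (k + 1) (by omega)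
      rw [nsmul_ev]
      have e : 2 * ((C : ℤ) * N) = -(C * 2 ^ (k + 1)) := by
        rw [hk]; ring
      rw [e, neg_zsmul, xc_neg]; exact h1
  · have h1 := Int.emod_lt_of_pos N (by exact_mod_cast hL : (0 : ℤ) < MM B C)
    have h2 := Int.emod_nonneg N (by exact_mod_cast hL.ne' : (MM B C : ℤ) ≠ 0)
    omega
  · have h2 := Int.emod_nonneg N (by exact_mod_cast hL.ne' : (MM B C : ℤ) ≠ 0)
    have h3 : IsCoprime (N % MM B C) (MM B C : ℤ) := by
      have h4 : IsCoprime N (MM B C : ℤ) := by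
        have h5 : IsCoprime (2 : ℤ) (MM B C : ℤ) := by
          have h6 : Nat.Coprime 2 (MM B C) := Nat.coprime_two_left.2 (odd_MM B C)
          exact_mod_cast Nat.isCoprime_iff_coprime.2 h6
        obtain ⟨k, hk | hk⟩ := hN
        · rw [hk]; exact h5.pow_left
        · rw [hk]; exact h5.pow_left.neg_left
      have h7 : N = N % MM B C + (N / MM B C) * MM B C := by
        rw [mul_comm]; exact (Int.emod_add_mul_ediv N (MM B C)).symm
      rw [h7] at h4
      exact IsCoprime.of_add_mul_right_left h4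
    have h8 : (((N % MM B C).toNat : ℕ) : ℤ) = N % MM B C := Int.toNat_of_nonneg h2
    rw [← h8] at h3
    exact Nat.isCoprime_iff_coprime.1 h3
  · have h2 := Int.emod_nonneg N (by exact_mod_cast hL.ne' : (MM B C : ℤ) ≠ 0)
    have h8 : (((N % MM B C).toNat : ℕ) : ℤ) = N % MM B C := Int.toNat_of_nonneg h2
    rw [nsmul_ev, ← natCast_zsmul, ← natCast_zsmul, ← mul_zsmul, ← add_zsmul, h8]
    congr 1
    have h9 := Int.emod_add_mul_ediv N (MM B C)
    push_cast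
    linarith

/-! ### Squares and products -/

lemma ev_sub (a b : ℤ) : (2 * a) • P0 - (2 * b) • P0 = (2 * (a - b)) • P0 := by
  rw [sub_eq_add_neg, ← sub_zsmul]; congr 1; ring

lemma ev_add (a b : ℤ) : (2 * a) • P0 + (2 * b) • P0 = (2 * (a + b)) • P0 := by
  rw [← add_zsmul]; congr 1; ring

lemma two_P0 : (2 : ℕ) • P0 = (2 * 1 : ℤ) • P0 := by
  rw [← natCast_zsmul]; rfl

theorem oneP_iff {m : ℕ} {N : ℤ} : OneP m ((2 * N) • P0) ↔ (m : ℤ) ∣ N - 1 := by
  unfold OneP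
  constructor
  · rintro ⟨_, ⟨K, rfl⟩, hK⟩
    rw [two_P0, ev_sub, nsmul_ev] at hK
    exact ⟨K, ev_inj hK⟩
  · rintro ⟨K, hK⟩
    refine ⟨_, ⟨K, rfl⟩, ?_⟩
    rw [two_P0, ev_sub, nsmul_ev, hK]

theorem sqOP_iff {B C : ℕ} {R : Set ℚ} (hR : Cls B C R) {x z : ℤ} (hx : (2 * C : ℤ) ∣ x + 1)
    (hz : (2 * C : ℤ) ∣ z - 1) :
    SqOP B C R ((2 * x) • P0) ((2 * z) • P0) ↔ z = x ^ 2 := by
  have hxo : Odd x := by
    obtain ⟨t, ht⟩ := hx
    exact ⟨C * t - 1, by linarith⟩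
  have hcx : ∀ r : ℕ, r.Prime → (r : ℤ) ∣ x → ¬ r ∣ 2 * C := by
    intro r hr h1 h2
    have h3 : (r : ℤ) ∣ x + 1 := by
      refine dvd_trans ?_ hx
      have := Int.natCast_dvd_natCast.2 h2
      push_cast at this
      exact this
    have h4 : (r : ℤ) ∣ 1 := by
      have := dvd_sub h3 h1
      rwa [add_sub_cancel_left] at this
    have h5 : r ∣ 1 := by exact_mod_cast h4
    exact hr.one_lt.ne' (Nat.dvd_one.1 h5)
  have hcz : ∀ r : ℕ, r.Prime → (r : ℤ) ∣ z → ¬ r ∣ 2 * C := by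
    intro r hr h1 h2
    have h3 : (r : ℤ) ∣ z - 1 := by
      refine dvd_trans ?_ hz
      have := Int.natCast_dvd_natCast.2 h2
      push_cast at this
      exact this
    have h4 : (r : ℤ) ∣ 1 := by
      have := dvd_sub h1 h3
      rwa [sub_sub_cancel] at this
    have h5 : r ∣ 1 := by exact_mod_cast h4
    exact hr.one_lt.ne' (Nat.dvd_one.1 h5)
  constructor
  · rintro ⟨_, _, _, _, ⟨hp1, hp2, hp4, hp8⟩, ⟨_, ⟨K, rfl⟩, hK⟩, ⟨hv1, hv2, hv4⟩,
      ⟨hK4, hK8, hK4'⟩, hr1, hr2, hr3⟩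
    obtain ⟨N, rfl⟩ := hp1.1
    obtain ⟨N2, rfl⟩ := hp2.1
    obtain ⟨N4, rfl⟩ := hp4.1
    obtain ⟨N8, rfl⟩ := hp8.1
    have hP1 := powP_sound hR hp1
    have hP2 := powP_sound hR hp2
    have hP4 := powP_sound hR hp4
    have hP8 := powP_sound hR hp8
    have ne : ∀ {N : ℤ}, IsP N → N ≠ 0 := by
      intro N hN
      rcases hN.eq with h | h
      · rw [h]; positivity
      · rw [h]; simp
    rw [v2P_iff (ne hP1) (ne hP2)] at hv1
    rw [v2P_iff (ne hP2) (ne hP4)] at hv2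
    rw [v2P_iff (ne hP4) (ne hP8)] at hv4
    rw [nsmul_ev] at hK
    rw [oneP_iff] at hK4 hK8 hK4'
    rw [two_P0, ev_sub] at hr1 hr2
    rw [ev_sub, ev_sub] at hr3
    have e0 := ev_inj hK
    have hNe : Even N := ⟨K, by rw [e0]; push_cast; ring⟩
    have hN1 : 1 ≤ padicValInt 2 N := by
      by_contra hcon
      have h4 : padicValInt 2 N = 0 := by omega
      rcases hP1.eq with h5 | h5
      · rw [h4, pow_zero] at h5; rw [h5] at hNe; exact absurd hNe (by decide)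
      · rw [h4, pow_zero] at h5; rw [h5] at hNe; exact absurd hNe (by decide)
    have hN4e : Even N4 := by
      have h1 : padicValInt 2 N4 ≠ 0 := by omega
      rcases hP4.eq with h | h
      · rw [h]; exact (by decide : Even (2 : ℤ)).pow_of_ne_zero h1
      · rw [h]; exact ((by decide : Even (2 : ℤ)).pow_of_ne_zero h1).neg
    have hc4 : ∀ r : ℕ, r.Prime → (r : ℤ) ∣ N4 - x → ¬ r ∣ 2 * C := by
      intro r hr h1 h2
      by_cases hr2 : r = 2
      · subst hr2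
        have h3 : Odd (N4 - x) := hN4e.sub_odd hxo
        rw [← Int.not_even_iff_odd, even_iff_two_dvd] at h3
        exact h3 (by exact_mod_cast h1)
      · have h3 : r ∣ C := by
          rcases (hr.dvd_mul).1 h2 with h | h
          · exact absurd ((Nat.prime_dvd_prime_iff_eq hr Nat.prime_two).1 h) hr2
          · exact h
        have h4 : r ≤ B + C := by
          have := Nat.le_of_dvd hR.pos h3
          omega
        have h5 : (r : ℤ) ∣ N4 - 1 := (Int.natCast_dvd_natCast.2 (dvd_MM hr hr2 h4)).trans hK4'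
        have h6 : (r : ℤ) ∣ x + 1 := by
          refine dvd_trans ?_ hx
          have := Int.natCast_dvd_natCast.2 h2
          push_cast at this
          exact this
        have h7 : (r : ℤ) ∣ 2 := by
          have := dvd_sub (dvd_add h1 h6) h5
          have e : N4 - x + (x + 1) - (N4 - 1) = 2 := by ring
          rwa [e] at this
        have h8 : r ∣ 2 := by exact_mod_cast h7
        exact hr2 ((Nat.prime_dvd_prime_iff_eq hr Nat.prime_two).1 h8)
    exact sq_sound hP1 hP4 hP8 hNe hv1 hv2 hv4 (by exact_mod_cast hK4) (by exact_mod_cast hK8)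
      (relP_sound hR hcx hr1) (relP_sound hR hcz hr2) (relP_sound hR hc4 hr3)
  · rintro rfl
    obtain ⟨k, hk, d1, d2, t4, t8, tM, d3⟩ := sq_complete hxo (odd_MM B C)
    have hx0 : x ≠ 0 := by rintro rfl; exact absurd hxo (by decide)
    have hp : ∀ n : ℕ, IsP (2 ^ n) := fun n => ⟨n, Or.inl rfl⟩
    refine ⟨(2 * 2 ^ k : ℤ) • P0, (2 * 2 ^ (2 * k) : ℤ) • P0, (2 * 2 ^ (4 * k) : ℤ) • P0,
      (2 * 2 ^ (8 * k) : ℤ) • P0, ⟨powP_complete hR (hp _), powP_complete hR (hp _),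
      powP_complete hR (hp _), powP_complete hR (hp _)⟩,
      ⟨_, ⟨2 ^ (k - 1), rfl⟩, ?_⟩, ⟨?_, ?_, ?_⟩, ⟨?_, ?_, ?_⟩, ?_, ?_, ?_⟩
    · rw [nsmul_ev]
      congr 1
      obtain ⟨k', rfl⟩ : ∃ k', k = k' + 1 := ⟨k - 1, by omega⟩
      rw [Nat.add_sub_cancel]
      push_cast
      ring
    · rw [v2P_iff (by positivity) (by positivity), val_two_pow, val_two_pow]
    · rw [v2P_iff (by positivity) (by positivity), val_two_pow, val_two_pow]; ring
    · rw [v2P_iff (by positivity) (by positivity), val_two_pow, val_two_pow]; ring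
    · rw [oneP_iff]; exact_mod_cast t4
    · rw [oneP_iff]; exact_mod_cast t8
    · rw [oneP_iff]; exact tM
    · rw [two_P0, ev_sub]
      exact relP_complete hR hx0 d1
    · rw [two_P0, ev_sub]
      exact relP_complete hR (pow_ne_zero 2 hx0) d2
    · rw [ev_sub, ev_sub]
      refine relP_complete hR ?_ d3
      intro h
      have h1 : x = 2 ^ (4 * k) := by linarith
      rw [h1] at hxo
      have h2 : Even ((2 : ℤ) ^ (4 * k)) := (by decide : Even (2 : ℤ)).pow_of_ne_zero (by omega)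
      exact (Int.not_odd_iff_even.2 h2) hxo

theorem sqP_iff {B C : ℕ} {R : Set ℚ} (hR : Cls B C R) {V W : EC.Point} :
    SqP B C R V W ↔ ∃ x : ℤ, V = (2 * x) • P0 ∧ W = (2 * x ^ 2) • P0 := by
  have hC : (C : ℤ) ≠ 0 := by exact_mod_cast hR.pos.ne'
  have key : ∀ x z : ℤ, SqOP B C R ((2 * C) • ((2 * x) • P0) - 2 • P0)
      ((4 * C ^ 2) • ((2 * z) • P0) - (4 * C) • ((2 * x) • P0) + 2 • P0) ↔ z = x ^ 2 := by
    intro x z
    have e1 : (2 * C) • ((2 * x) • P0) - 2 • P0 = (2 * (2 * C * x - 1)) • P0 := by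
      rw [nsmul_ev, two_P0, ev_sub]
      push_cast
      rfl
    have e2 : (4 * C ^ 2) • ((2 * z) • P0) - (4 * C) • ((2 * x) • P0) + 2 • P0 =
        (2 * (4 * C ^ 2 * z - 4 * C * x + 1)) • P0 := by
      rw [nsmul_ev, nsmul_ev, two_P0, ev_sub, ev_add]
      push_cast
      rfl
    rw [e1, e2, sqOP_iff hR ⟨x, by ring⟩ ⟨2 * C * z - 2 * x, by ring⟩]
    constructor
    · intro h
      have h1 : (4 * (C : ℤ) ^ 2) * z = (4 * (C : ℤ) ^ 2) * x ^ 2 := by linear_combination h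
      exact mul_left_cancel₀ (mul_ne_zero (by norm_num) (pow_ne_zero 2 hC)) h1
    · rintro rfl
      ring
  constructor
  · rintro ⟨⟨x, rfl⟩, ⟨z, rfl⟩, h⟩
    rw [key] at h
    exact ⟨x, rfl, by rw [h]⟩
  · rintro ⟨x, rfl, rfl⟩
    exact ⟨⟨x, rfl⟩, ⟨x ^ 2, rfl⟩, (key x (x ^ 2)).2 rfl⟩

/-- row G -/
theorem rowG : RowG := by
  intro B C R hR V W Z
  constructor
  · rintro ⟨⟨z, rfl⟩, A, D, E, h1, h2, h3, h4⟩
    rw [sqP_iff hR] at h1 h2 h3
    obtain ⟨m, rfl, rfl⟩ := h1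
    obtain ⟨n, rfl, rfl⟩ := h2
    obtain ⟨s, hs, rfl⟩ := h3
    rw [ev_add] at hs
    have e1 := ev_inj hs
    rw [nsmul_ev, ev_add, ev_add] at h4
    have e2 := ev_inj h4
    refine ⟨m, n, rfl, rfl, ?_⟩
    have e3 : z = m * n := by
      rw [← e1] at e2
      push_cast at e2
      have : 2 * z = 2 * (m * n) := by linear_combination -e2
      omega
    rw [e3]
  · rintro ⟨m, n, rfl, rfl, rfl⟩
    refine ⟨⟨_, rfl⟩, (2 * m ^ 2) • P0, (2 * n ^ 2) • P0, (2 * (m + n) ^ 2) • P0,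
      (sqP_iff hR).2 ⟨m, rfl, rfl⟩, (sqP_iff hR).2 ⟨n, rfl, rfl⟩,
      (sqP_iff hR).2 ⟨m + n, ev_add _ _, rfl⟩, ?_⟩
    rw [nsmul_ev, ev_add, ev_add]
    congr 1
    push_cast
    ring

end Vale.Agent.P027.D1
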