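import Vale.Agent.P027.R4.H815.Cor

set_option linter.all false

/-! Sparse sets of omitted primes: one prime for each prime power. -/

namespace Vale.Agent.P027.D1

open Vale.Agent.P345 Vale.Agent.P027 Vale.Agent.P027.HT

/-- the largest prime of order `m` (zero if there is none) -/
noncomputable def bigQ (m : ℕ) : ℕ := sSup {q : ℕ | q.Prime ∧ Ord q m}

theorem ord_le_den {q m : ℕ} (h : Ord q m) : q ≤ (xc ((m : ℤ) • P0)).den := by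
  have h1 : Dv q m := (h.2 m).2 (dvd_refl _)
  rcases h1 with h1 | h1
  · exact absurd h1 (by exact_mod_cast h.1.ne')
  · exact Nat.le_of_dvd (Rat.den_pos _) h1

theorem bddAbove_ord (m : ℕ) : BddAbove {q : ℕ | q.Prime ∧ Ord q m} :=
  ⟨(xc ((m : ℤ) • P0)).den, fun _ h => ord_le_den h.2⟩

/-- `bigQ m` is the largest prime of order `m` -/
theorem bigQ_spec {m : ℕ} (h : ∃ q : ℕ, q.Prime ∧ Ord q m) :
    (bigQ m).Prime ∧ Ord (bigQ m) m ∧ ∀ q : ℕ, q.Prime → Ord q m → q ≤ bigQ m := by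
  have h1 : bigQ m ∈ {q : ℕ | q.Prime ∧ Ord q m} := Nat.sSup_mem h (bddAbove_ord m)
  exact ⟨h1.1, h1.2, fun q hq ho => le_csSup (bddAbove_ord m) ⟨hq, ho⟩⟩

/-- the sparse set of omitted primes -/
def TS (C N : ℕ) : Set ℕ :=
  {q | ∃ r e : ℕ, r.Prime ∧ ¬ r ∣ 2 * C ∧ 1 ≤ e ∧ N < r ^ e ∧ q = bigQ (r ^ e)}

theorem TS_spec {N C : ℕ} (hN : ∀ r e : ℕ, r.Prime → r ≠ 2 → 1 ≤ e → N < r ^ e →
    ∃ q : ℕ, q.Prime ∧ Ord q (r ^ e)) {q : ℕ} (hq : q ∈ TS C N) :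
    ∃ r e : ℕ, r.Prime ∧ ¬ r ∣ 2 * C ∧ 1 ≤ e ∧ N < r ^ e ∧ q = bigQ (r ^ e) ∧ q.Prime ∧
      Ord q (r ^ e) ∧ ∀ q' : ℕ, q'.Prime → Ord q' (r ^ e) → q' ≤ q := by
  obtain ⟨r, e, hr, hrC, he, hN', rfl⟩ := hq
  have h2 : r ≠ 2 := by
    rintro rfl
    exact hrC (dvd_mul_right _ _)
  obtain ⟨h3, h4, h5⟩ := bigQ_spec (hN r e hr h2 he hN')
  exact ⟨r, e, hr, hrC, he, hN', rfl, h3, h4, h5⟩

/-- membership in `TS` -/
theorem mem_TS_iff {N C : ℕ} (hN : ∀ r e : ℕ, r.Prime → r ≠ 2 → 1 ≤ e → N < r ^ e →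
    ∃ q : ℕ, q.Prime ∧ Ord q (r ^ e)) (q : ℕ) :
    q ∈ TS C N ↔ q.Prime ∧ ∃ r e : ℕ, r.Prime ∧ ¬ r ∣ 2 * C ∧ 1 ≤ e ∧ N < r ^ e ∧
      Ord q (r ^ e) ∧ ∀ q' : ℕ, q'.Prime → Ord q' (r ^ e) → q' ≤ q := by
  constructor
  · intro h
    obtain ⟨r, e, h1, h2, h3, h4, h5, h6, h7, h8⟩ := TS_spec hN h
    exact ⟨h6, r, e, h1, h2, h3, h4, h7, h8⟩
  · rintro ⟨h6, r, e, h1, h2, h3, h4, h7, h8⟩
    refine ⟨r, e, h1, h2, h3, h4, ?_⟩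
    obtain ⟨h9, h10, h11⟩ := bigQ_spec ⟨q, h6, h7⟩
    exact le_antisymm (h11 q h6 h7) (h8 _ h9 h10)

/-- all sets whose denominators are prime to `TS` -/
theorem cls_TS {N C : ℕ} (hN : ∀ r e : ℕ, r.Prime → r ≠ 2 → 1 ≤ e → N < r ^ e →
    ∃ q : ℕ, q.Prime ∧ Ord q (r ^ e)) (hC : 0 < C) {R : Set ℚ} (hZ : ∀ z : ℤ, (z : ℚ) ∈ R)
    (h2 : ∀ k : ℕ, 1 ≤ k → xc ((C * 2 ^ k : ℤ) • P0) ∈ R)
    (hR : ∀ q ∈ TS C N, ∀ t ∈ R, ¬ q ∣ t.den) : Cls N C R := by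
  refine ⟨hC, hZ, h2, fun r e hr hrC he hB => ?_⟩
  have hr2 : r ≠ 2 := by
    rintro rfl
    exact hrC (dvd_mul_right _ _)
  obtain ⟨h3, h4, h5⟩ := bigQ_spec (hN r e hr hr2 he hB)
  exact ⟨bigQ (r ^ e), h3, ⟨1, one_dvd _, by rw [one_mul]; exact h4⟩,
    hR _ ⟨r, e, hr, hrC, he, hB, rfl⟩⟩

/-- the largest ring of this kind -/
theorem loc_TS {N C : ℕ} (hN : ∀ r e : ℕ, r.Prime → r ≠ 2 → 1 ≤ e → N < r ^ e →
    ∃ q : ℕ, q.Prime ∧ Ord q (r ^ e)) (hC : 0 < C) :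
    Cls N C {t : ℚ | ∀ q ∈ TS C N, ¬ q ∣ t.den} := by
  refine cls_TS hN hC (fun z q hq h => ?_) (fun k _ q hq h => ?_) (fun q hq t ht => ht q hq)
  · obtain ⟨r, e, -, -, -, -, -, hq', -⟩ := TS_spec hN hq
    rw [Rat.den_intCast] at h
    exact hq'.one_lt.ne' (Nat.dvd_one.1 h)
  · obtain ⟨r, e, hr, hrC, he, hB, -, hq', ho, -⟩ := TS_spec hN hq
    have h1 : Dv q (C * 2 ^ k) := Or.inr h
    rw [ho.2] at h1
    have h2 : r ∣ C * 2 ^ k := by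
      have h3 : (r : ℤ) ∣ ((C * 2 ^ k : ℕ) : ℤ) := by
        refine dvd_trans ?_ (dvd_trans h1 (dvd_of_eq (by push_cast; rfl)))
        push_cast
        exact dvd_pow_self _ (by omega)
      exact Int.natCast_dvd_natCast.1 h3
    rcases hr.dvd_mul.1 h2 with h3 | h3
    · exact hrC (h3.mul_left 2)
    · exact hrC ((hr.dvd_of_dvd_pow h3).mul_right C)

end Vale.Agent.P027.D1
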