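import Vale.Agent.P027.R4.H788.Sparse

set_option linter.all false

/-! One sparse set of omitted primes for all constants `C`. -/

namespace Vale.Agent.P027.D1

open Vale.Agent.P345 Vale.Agent.P027 Vale.Agent.P027.HT

theorem TS_sub (C N : ℕ) : TS C N ⊆ TS 1 N := by
  rintro q ⟨r, e, hr, hrC, he, hN, hq⟩
  exact ⟨r, e, hr, fun h => hrC (Dvd.dvd.mul_right (by simpa using h) C), he, hN, hq⟩

/-- all sets whose denominators are prime to `TS 1 N` -/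
theorem cls_TS1 {N C : ℕ} (hN : ∀ r e : ℕ, r.Prime → r ≠ 2 → 1 ≤ e → N < r ^ e →
    ∃ q : ℕ, q.Prime ∧ Ord q (r ^ e)) (hC : 0 < C) {R : Set ℚ} (hZ : ∀ z : ℤ, (z : ℚ) ∈ R)
    (h2 : ∀ k : ℕ, 1 ≤ k → xc ((C * 2 ^ k : ℤ) • P0) ∈ R)
    (hR : ∀ q ∈ TS 1 N, ∀ t ∈ R, ¬ q ∣ t.den) : Cls N C R :=
  cls_TS hN hC hZ h2 (fun q hq => hR q (TS_sub C N hq))

/-- the largest ring of this kind -/
theorem loc_TS1 {N C : ℕ} (hN : ∀ r e : ℕ, r.Prime → r ≠ 2 → 1 ≤ e → N < r ^ e →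
    ∃ q : ℕ, q.Prime ∧ Ord q (r ^ e)) (hC : 0 < C) (hCN : C ≤ N) :
    Cls N C {t : ℚ | ∀ q ∈ TS 1 N, ¬ q ∣ t.den} := by
  refine cls_TS1 hN hC (fun z q hq h => ?_) (fun k _ q hq h => ?_) (fun q hq t ht => ht q hq)
  · obtain ⟨r, e, -, -, -, -, -, hq', -⟩ := TS_spec hN hq
    rw [Rat.den_intCast] at h
    exact hq'.one_lt.ne' (Nat.dvd_one.1 h)
  · obtain ⟨r, e, hr, hrC, he, hB, -, hq', ho, -⟩ := TS_spec hN hq
    have h1 : Dv q (C * 2 ^ k) := Or.inr h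
    rw [ho.2] at h1
    have h2 : r ^ e ∣ C * 2 ^ k := by
      have h3 : ((r ^ e : ℕ) : ℤ) ∣ ((C * 2 ^ k : ℕ) : ℤ) :=
        dvd_trans h1 (dvd_of_eq (by push_cast; rfl))
      exact Int.natCast_dvd_natCast.1 h3
    have h4 : Nat.Coprime (r ^ e) (2 ^ k) := by
      refine Nat.Coprime.pow _ _ ((Nat.Prime.coprime_iff_not_dvd hr).2 ?_)
      simpa using hrC
    have h5 := Nat.le_of_dvd hC (h4.dvd_of_dvd_mul_right h2)
    omega

end Vale.Agent.P027.D1
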